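import Vale.Agent.P177.PI.Kos
import Vale.Agent.P177.Mass.Mass
import Vale.Agent.P202.Mix.KzBasic

/-!
P177, (K): the Koszul homology of `J b = perfHull (P Y^b)` with respect to `y` is controlled by
the quotients `J b / J b'`, and these (up to `h`-torsion) by `C / perfHull (Y ^ l)`.
-/

namespace Vale.Agent.P177.KM

open Vale.Agent.P202.Mix Vale.Agent.P177.Mass
open scoped ENNReal

universe u

section Abs

variable {R : Type u} [CommRing R] (L : AddLen R) {N V : Type u} [AddCommGroup N] [Module R N]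
  [AddCommGroup V] [Module R V] {n : ℕ}

theorem len_quot_le {A B : Submodule R N} (h : A ≤ B) : L.len (N ⧸ B) ≤ L.len (N ⧸ A) :=
  len_surj L (Submodule.factor h) (Submodule.factor_surjective h)

theorem len_quot_ker {K : Type u} [AddCommGroup K] [Module R K] (f : N →ₗ[R] K) :
    L.len (N ⧸ LinearMap.ker f) ≤ L.len K := by
  rw [len_congr L f.quotKerEquivRange]
  exact len_inj L (LinearMap.range f).subtype (LinearMap.range f).injective_subtype

theorem len_quot_inf (A B : Submodule R N) :
    L.len (N ⧸ (A ⊓ B)) ≤ L.len (N ⧸ A) + L.len (N ⧸ B) := by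
  have h1 := len_map_add L (Submodule.factor (inf_le_left : A ⊓ B ≤ A)) ⊤
  rw [top_inf_eq, len_congr L (Submodule.topEquiv (R := R) (M := N ⧸ (A ⊓ B)))] at h1
  rw [h1, add_comm]
  refine add_le_add ?_ ?_
  · exact (len_inj L (Submodule.subtype _) (Submodule.injective_subtype _))
  · refine len_inj L ((Submodule.factor (inf_le_right : A ⊓ B ≤ B)) ∘ₗ Submodule.subtype _) ?_
    rw [← LinearMap.ker_eq_bot, LinearMap.ker_eq_bot']
    rintro ⟨x, hx⟩ h2
    obtain ⟨y, rfl⟩ := Submodule.mkQ_surjective _ x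
    have hxA : y ∈ A := by
      have h3 : Submodule.factor (inf_le_left : A ⊓ B ≤ A) ((A ⊓ B).mkQ y) = 0 := hx
      simpa [Submodule.factor_mk, Submodule.Quotient.mk_eq_zero] using h3
    have hxB : y ∈ B := by
      have h3 : Submodule.factor (inf_le_right : A ⊓ B ≤ B) ((A ⊓ B).mkQ y) = 0 := h2
      simpa [Submodule.factor_mk, Submodule.Quotient.mk_eq_zero] using h3
    refine Subtype.ext ?_
    show (A ⊓ B).mkQ y = 0
    rw [Submodule.mkQ_apply, Submodule.Quotient.mk_eq_zero]
    exact ⟨hxA, hxB⟩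

theorem len_quot_iInf {ι : Type*} (s : Finset ι) (A : ι → Submodule R N) :
    L.len (N ⧸ (s.inf A)) ≤ ∑ i ∈ s, L.len (N ⧸ A i) := by
  classical
  induction s using Finset.induction_on with
  | empty =>
    rw [Finset.inf_empty, Finset.sum_empty]
    exact (len_subsingleton L).le
  | insert i s hi ih =>
    rw [Finset.inf_insert, Finset.sum_insert hi]
    exact (len_quot_inf L _ _).trans (add_le_add le_rfl ih)

/-- the `i`-th Koszul homology of commuting operators. -/
abbrev KH (T : Fin n → V →ₗ[R] V) (i : ℕ) : Type u :=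
  ↥(kcyc T (i : ℤ)) ⧸ (kbd T (i : ℤ)).submoduleOf (kcyc T (i : ℤ))

/-- **abstract (K)**: if the subcomplex with terms `G S` is exact in degree `i`, then
`len H_i(T; V) ≤ ∑_{|S| = i} len (V / G S)`. -/
theorem len_KH_le (T : Fin n → V →ₗ[R] V) (G : Finset (Fin n) → Submodule R V) (i : ℕ)
    (hG : ∀ v : Finset (Fin n) → V, (∀ S : Finset (Fin n), S.card = i → v S ∈ G S) →
      (∀ S : Finset (Fin n), S.card ≠ i → v S = 0) → kz T v = 0 →
      ∃ w : Finset (Fin n) → V, (∀ S : Finset (Fin n), S.card ≠ i + 1 → w S = 0) ∧ kz T w = v) :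
    L.len (KH T i) ≤ ∑ S ∈ (Finset.univ : Finset (Finset (Fin n))).filter (fun S => S.card = i),
      L.len (V ⧸ G S) := by
  classical
  set s := (Finset.univ : Finset (Finset (Fin n))).filter (fun S => S.card = i) with hs
  set A : Finset (Fin n) → Submodule R ↥(kcyc T (i : ℤ)) := fun S =>
    LinearMap.ker ((G S).mkQ ∘ₗ (LinearMap.proj S) ∘ₗ (kcyc T (i : ℤ)).subtype) with hA
  have h1 : s.inf A ≤ (kbd T (i : ℤ)).submoduleOf (kcyc T (i : ℤ)) := by
    rintro ⟨v, hv⟩ hx
    rw [Submodule.mem_finsetInf] at hx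
    have hv1 : ∀ S : Finset (Fin n), S.card = i → v S ∈ G S := by
      intro S hS
      have h2 := hx S (by simp [hs, hS])
      simpa [hA, LinearMap.mem_ker, Submodule.Quotient.mk_eq_zero] using h2
    have hv2 : ∀ S : Finset (Fin n), S.card ≠ i → v S = 0 := by
      intro S hS
      by_contra h
      have := hv.1 S h
      exact hS (by exact_mod_cast this)
    obtain ⟨w, hw1, hw2⟩ := hG v hv1 hv2 hv.2
    show v ∈ kbd T (i : ℤ)
    refine ⟨w, ?_, hw2⟩
    intro S hS
    by_contra h
    exact hS (hw1 S (by intro h'; exact h (by rw [h']; push_cast; rfl)))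
  refine (len_quot_le L h1).trans ((len_quot_iInf L s A).trans ?_)
  exact Finset.sum_le_sum fun S _ => len_quot_ker L _

end Abs

end Vale.Agent.P177.KM
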