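import Vale.Agent.P177.KM.KW
import Vale.Agent.P177.PI.Pack

/-!
P177, (K), part 5: finiteness of the Koszul homology over the product ring `∏ C_e`, from almost
Artin-Rees at every level.
-/

namespace Vale.Agent.P177.KM

open WittVector Vale.Agent.P202.Mix Vale.Agent.P177.Mass Vale.Agent.P177.PI Vale.Agent.P177.Perf
open scoped ENNReal

universe u

section

variable {R : Type u} [CommRing R] (L : AddLen R)

/-- `L` is zero on the modules killed by `h`. -/
def Kil (h : R) : Prop :=
  ∀ (M : Type u) [AddCommGroup M] [Module R M], (∀ m : M, h • m = 0) → L.len M = 0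

variable {L}

theorem Kil.mul {h h' : R} (h1 : Kil L h) (h2 : Kil L h') : Kil L (h * h') := by
  intro M _ _ hM
  -- `N = {m | h' m = 0}`; `M / N` is killed by `h`
  let f : M →ₗ[R] M := LinearMap.lsmul R M h'
  rw [len_ker_range L f, h2 _ (by
    rintro ⟨m, hm⟩
    exact Subtype.ext hm), h1 _ (by
    rintro ⟨m, x, rfl⟩
    apply Subtype.ext
    show h • h' • x = 0
    rw [smul_smul]
    exact hM x), add_zero]

theorem Kil.pow {h : R} (h1 : Kil L h) (m : ℕ) : Kil L (h ^ m) := by
  induction m with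
  | zero =>
    intro M _ _ hM
    have : Subsingleton M := ⟨fun a b => by
      have ha := hM a
      have hb := hM b
      rw [pow_zero, one_smul] at ha hb
      rw [ha, hb]⟩
    exact len_subsingleton L
  | succ m ih =>
    rw [pow_succ]
    exact ih.mul h1

end

section

variable (p : ℕ) [hp : Fact p.Prime] {C : ℕ → Type u} [∀ e, CommRing (C e)]
  [∀ e, CharP (C e) p] [∀ e, PerfectRing (C e) p] {n : ℕ}

attribute [local instance] charP_pi perfectRing_pi

/-- the idempotent `(0, .., 0, 1, 1, ..)`. -/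
def tail (C : ℕ → Type u) [∀ e, CommRing (C e)] (N : ℕ) : ∀ e, C e := fun e => if N ≤ e then 1 else 0

/-- levelwise almost Artin-Rees for the ideals `P_e`. -/
def LevelAR (y : Fin n → ∀ e, C e) (P : ∀ e, Ideal (C e)) (η : ∀ e, C e) : Prop :=
  ∀ K : ℕ, ∃ B N m : ℕ, ∀ e, N ≤ e → ∀ x ∈ perfHull p (P e),
    x ∈ perfHull p (Ideal.span (Set.range fun l => y l e) ^ B) →
      η e ^ m * x ∈ perfHull p (Ideal.span (Set.range fun l => y l e) ^ K * P e)

/-- the product ideals `J b = ∏ perfHull (P_e Y_e ^ b)`. -/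
noncomputable def PJpi (P : ∀ e, Ideal (C e)) (y : Fin n → ∀ e, C e) (b : ℕ) :
    Ideal (∀ e, C e) := piI fun e => PJ p (P e) (fun l => y l e) b

omit [∀ e, PerfectRing (C e) p] in
theorem PJpi_antitone (P : ∀ e, Ideal (C e)) (y : Fin n → ∀ e, C e) :
    Antitone (PJpi p P y) :=
  piI_antitone _ fun e => PJ_antitone p (P e) _

omit [∀ e, PerfectRing (C e) p] in
theorem span_pow_le_piI (y : Fin n → ∀ e, C e) (B : ℕ) :
    Ideal.span (Set.range y) ^ B ≤ piI fun e =>
      perfHull p (Ideal.span (Set.range fun l => y l e) ^ B) := by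
  intro x hx e
  apply le_perfHull
  have h1 := Ideal.mem_map_of_mem (Pi.evalRingHom C e) hx
  rw [Ideal.map_pow, Ideal.map_span, ← Set.range_comp] at h1
  exact h1

omit [∀ e, PerfectRing (C e) p] in
theorem PJpi_key (y : Fin n → ∀ e, C e) (P : ∀ e, Ideal (C e)) (η : ∀ e, C e) (b s B N m : ℕ)
    (hB : ∀ e, N ≤ e → ∀ x ∈ perfHull p (P e),
      x ∈ perfHull p (Ideal.span (Set.range fun l => y l e) ^ B) →
        η e ^ m * x ∈ perfHull p (Ideal.span (Set.range fun l => y l e) ^ s * P e))
    (x : ∀ e, C e) (hx : x ∈ PJpi p P y b) (hxY : x ∈ piI fun e =>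
      perfHull p (Ideal.span (Set.range fun l => y l e) ^ B)) :
    tail C N * η ^ m * x ∈ PJpi p P y s := by
  intro e
  have h0 : (tail C N * η ^ m * x) e = tail C N e * η e ^ m * x e := rfl
  rw [h0]
  by_cases he : N ≤ e
  · rw [tail, if_pos he, one_mul]
    have hx' : ∀ e, x e ∈ PJ p (P e) (fun l => y l e) b := hx
    have hle : PJ p (P e) (fun l => y l e) b ≤ perfHull p (P e) :=
      perfHull_mono Ideal.mul_le_left
    have hxY' : ∀ e, x e ∈ perfHull p (Ideal.span (Set.range fun l => y l e) ^ B) := hxY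
    have h2 := hB e he (x e) (hle (hx' e)) (hxY' e)
    rw [mul_comm (Ideal.span _ ^ _)] at h2
    exact h2
  · rw [tail, if_neg he, zero_mul, zero_mul]
    exact zero_mem _

/-- **(K) over the product ring.** -/
theorem len_KH_PJpi_lt_top (L : AddLen (WittVector p (∀ e, C e))) (y : Fin n → ∀ e, C e)
    (P : ∀ e, Ideal (C e)) (hP : ∀ e, (P e).FG) (η : ∀ e, C e)
    (hη : Kil L (teichmuller p η)) (hT : ∀ N, Kil L (teichmuller p (tail C N)))
    (hY : L.len (WittVector p (∀ e, C e) ⧸ (Ideal.span {(p : WittVector p (∀ e, C e))} ⊔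
      Ideal.span (Set.range fun l => teichmuller p (y l)))) < ⊤)
    (hAR : LevelAR p y P η) (b : ℕ) (hb : 1 ≤ b) (i : ℕ) :
    let := algW p (∀ e, C e)
    L.len (KH (fun l => mulJ (WittVector p (∀ e, C e)) (PJpi p P y b) (y l)) i) < ⊤ := by
  intro _
  obtain ⟨B, N, m, hB⟩ := hAR (b + n - i)
  have hY' : L.len ((∀ e, C e) ⧸ Ideal.span (Set.range y)) < ⊤ := by
    rw [len_W_quot p L y _ rfl]
    exact hY
  refine len_KH_mulJ_lt_top L (teichmuller p (tail C N) * teichmuller p η ^ m)
    (((hT N).mul (hη.pow m))) y (PJpi p P y) (PJpi_antitone p P y) b i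
    (kosEx_piI y _ _ _ fun e => kosEx_PJ p (P e) (hP e) _ _ (by omega) i)
    (piI fun e => perfHull p (Ideal.span (Set.range fun l => y l e) ^ B))
    (len_quot_lt_top_of_pow_le L _ (Submodule.fg_span (Set.finite_range y)) hY' B _
      (span_pow_le_piI p y B)) ?_
  intro x hx hxY
  rw [algW_smul p (tail C N) η m x]
  exact PJpi_key p y P η b _ B N m hB x hx hxY

end

end Vale.Agent.P177.KM
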