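import Vale.Agent.P177.KM.KPerf
import Vale.Agent.P177.PI.KosW

/-!
P177, (K), part 4: the Witt vector side.  `C` as an algebra over `W(C)`; the reduction of
`WI J / E WI J` modulo `p` is `J / e J`, `e` the reduction of `E`.
-/

namespace Vale.Agent.P177.KM

open WittVector Vale.Agent.P202.Mix Vale.Agent.P177.Mass Vale.Agent.P177.PI Vale.Agent.P177.Perf
open scoped ENNReal

universe u

variable (p : ℕ) [hp : Fact p.Prime] {C : Type u} [CommRing C]

/-- `C` as an algebra over `W(C)`. -/
noncomputable abbrev algW (C : Type u) [CommRing C] : Algebra (WittVector p C) C :=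
  (WittVector.constantCoeff (p := p) (R := C)).toAlgebra

theorem coeff_zero_mul_pow (a b : C) (m : ℕ) :
    (teichmuller p a * teichmuller p b ^ m).coeff 0 = a * b ^ m := by
  have h1 : (WittVector.constantCoeff (teichmuller p a * teichmuller p b ^ m) : C) =
      a * b ^ m := by
    rw [map_mul, map_pow]
    have h2 : ∀ c : C, (WittVector.constantCoeff (teichmuller p c) : C) = c := fun c =>
      teichmuller_coeff_zero p c
    rw [h2, h2]
  exact h1

theorem algW_smul_def (w : WittVector p C) (x : C) :
    let := algW p C
    w • x = w.coeff 0 * x := rfl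

theorem algW_smul (a b : C) (m : ℕ) (x : C) :
    let := algW p C
    (teichmuller p a * teichmuller p b ^ m) • x = a * b ^ m * x := by
  intro _
  rw [← coeff_zero_mul_pow p a b m]
  exact algW_smul_def p _ x

section red

variable [CharP C p] [PerfectRing C p]

/-- `p` is regular on `WI J / E WI J` if the reduction of `E` is regular. -/
theorem wi_p_reg {J : Ideal C} (hJ : IsPerf p J) {E : WittVector p C}
    (hE : E.coeff 0 ∈ nonZeroDivisors C) {x w : WittVector p C} (hw : w ∈ WI p J)
    (h : (p : WittVector p C) * x = E * w) : ∃ w' ∈ WI p J, x = E * w' := by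
  have h0 : w.coeff 0 = 0 := by
    have h1 := congrArg (WittVector.constantCoeff (p := p) (R := C)) h
    rw [map_mul, map_mul, map_natCast, CharP.cast_eq_zero, zero_mul] at h1
    exact (mem_nonZeroDivisors_iff_left.1 hE) _ h1.symm
  obtain ⟨w', hw', rfl⟩ := exists_p_mul_of_coeff_zero p hJ hw h0
  refine ⟨w', hw', ?_⟩
  have h2 : (p : WittVector p C) * (x - E * w') = 0 := by
    rw [mul_sub, h]; ring
  exact sub_eq_zero.1 (p_reg p _ h2)

/-- reduction modulo `(p, E)`. -/
theorem wi_mod {J : Ideal C} (hJ : IsPerf p J) {E : WittVector p C} {x : WittVector p C}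
    (hx : x ∈ WI p J) {a : C} (ha : a ∈ J) (h : x.coeff 0 = E.coeff 0 * a) :
    ∃ v ∈ WI p J, x = E * teichmuller p a + (p : WittVector p C) * v := by
  have h1 : x - E * teichmuller p a ∈ WI p J :=
    sub_mem hx (Ideal.mul_mem_left _ _ (te_mem_WI p ha))
  have h2 : (x - E * teichmuller p a).coeff 0 = 0 := by
    have h3 : WittVector.constantCoeff (x - E * teichmuller p a) = 0 := by
      rw [map_sub, map_mul]
      show x.coeff 0 - E.coeff 0 * (teichmuller p a).coeff 0 = 0
      rw [teichmuller_coeff_zero, h, sub_self]
    exact h3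
  obtain ⟨v, hv, hv'⟩ := exists_p_mul_of_coeff_zero p hJ h1 h2
  exact ⟨v, hv, by rw [← hv']; ring⟩

end red

section quot

variable [CharP C p] [PerfectRing C p]

/-- `W(C) / (p, [y_l])` and `C / (y_l)` have the same length over `W(C)`. -/
theorem len_W_quot {n : ℕ} (L : AddLen (WittVector p C)) (y : Fin n → C) (I : Ideal (WittVector p C))
    (hI : I = Ideal.span {(p : WittVector p C)} ⊔
      Ideal.span (Set.range fun l => teichmuller p (y l))) :
    letI := algW p C
    L.len (C ⧸ Ideal.span (Set.range y)) = L.len (WittVector p C ⧸ I) := by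
  let := algW p C
  let f : WittVector p C →ₗ[WittVector p C] C ⧸ Ideal.span (Set.range y) :=
    (Ideal.span (Set.range y)).mkQ.restrictScalars (WittVector p C) ∘ₗ
      (Algebra.linearMap (WittVector p C) C)
  have hf : Function.Surjective f := by
    intro x
    obtain ⟨x, rfl⟩ := Ideal.Quotient.mk_surjective x
    refine ⟨teichmuller p x, ?_⟩
    show Ideal.Quotient.mk _ ((teichmuller p x).coeff 0) = _
    rw [teichmuller_coeff_zero]
  have hk : LinearMap.ker f = I := by
    ext x
    rw [LinearMap.mem_ker]
    show Ideal.Quotient.mk _ (x.coeff 0) = 0 ↔ _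
    rw [Ideal.Quotient.eq_zero_iff_mem, hI]
    constructor
    · intro h
      rw [Submodule.mem_span_range_iff_exists_fun] at h
      obtain ⟨c, hc⟩ := h
      have h2 : WittVector.constantCoeff (x - ∑ l, teichmuller p (c l) * teichmuller p (y l)) =
          0 := by
        rw [map_sub, map_sum]
        have h3 : ∀ l, WittVector.constantCoeff (p := p)
            (teichmuller p (c l) * teichmuller p (y l)) = c l • y l := by
          intro l
          rw [map_mul]
          show (teichmuller p (c l)).coeff 0 * (teichmuller p (y l)).coeff 0 = _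
          rw [teichmuller_coeff_zero, teichmuller_coeff_zero, smul_eq_mul]
        rw [Finset.sum_congr rfl fun l _ => h3 l, hc]
        exact sub_self _
      have h4 : x - ∑ l, teichmuller p (c l) * teichmuller p (y l) ∈
          Ideal.span {(p : WittVector p C)} := by
        rw [← WittVector.ker_constantCoeff]
        exact h2
      have h5 : x = (x - ∑ l, teichmuller p (c l) * teichmuller p (y l)) +
        ∑ l, teichmuller p (c l) * teichmuller p (y l) := by ring
      rw [h5]
      refine Submodule.add_mem_sup h4 (Ideal.sum_mem _ fun l _ => ?_)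
      exact Ideal.mul_mem_left _ _ (Ideal.subset_span ⟨l, rfl⟩)
    · intro h
      have h2 : I ≤ (Ideal.span (Set.range y)).comap (WittVector.constantCoeff (p := p)) := by
        rw [hI]
        refine sup_le ?_ ?_
        · rw [Ideal.span_singleton_le_iff_mem, Ideal.mem_comap, map_natCast,
            CharP.cast_eq_zero]
          exact zero_mem _
        · rw [Ideal.span_le]
          rintro _ ⟨l, rfl⟩
          show (teichmuller p (y l)).coeff 0 ∈ Ideal.span (Set.range y)
          rw [teichmuller_coeff_zero]
          exact Ideal.subset_span ⟨l, rfl⟩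
      exact h2 (by rw [hI]; exact h)
  rw [← len_congr L (f.quotKerEquivOfSurjective hf), hk]

end quot

end Vale.Agent.P177.KM
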