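import Vale.Agent.P177.TorLin
import Vale.Agent.P177.Mass.Mass

/-!
P177, FIN: finiteness (for an additive length) of `Tor_i^D (D ⊗ A, X)` for all finitely generated
`A` killed by `P`, from the finiteness for `A = R / m`.
-/

namespace Vale.Agent.P177.KM

open CategoryTheory TensorProduct Function IsLocalRing
open Vale.Agent.P202.Mix Vale.Agent.P177.Mass
open scoped ENNReal

universe u

variable (R : Type u) {D : Type u} [CommRing R] [CommRing D] [Algebra R D]
  (L : AddLen D) (X : Type u) [AddCommGroup X] [Module D X]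

/-- all `Tor_i^D (D ⊗ A, X)` have finite length. -/
def TF (A : Type u) [AddCommGroup A] [Module R A] : Prop :=
  ∀ i, L.len (TorM D i (D ⊗[R] A) X) < ⊤

variable {R}

variable {A A' A'' : Type u} [AddCommGroup A] [Module R A] [AddCommGroup A'] [Module R A']
  [AddCommGroup A''] [Module R A'']

theorem exact_len_le {M N K : Type u} [AddCommGroup M] [Module D M] [AddCommGroup N] [Module D N]
    [AddCommGroup K] [Module D K] (L : AddLen D) (f : M →ₗ[D] N) (g : N →ₗ[D] K)
    (h : Exact f g) : L.len N ≤ L.len M + L.len K := by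
  rw [len_ker_range L g]
  refine add_le_add ?_ ?_
  · rw [LinearMap.exact_iff.1 h]
    exact len_range_le L f
  · exact len_inj L (LinearMap.range g).subtype (LinearMap.range g).injective_subtype

theorem TF.congr (e : A ≃ₗ[R] A') (h : TF R L X A) : TF R L X A' := by
  intro i
  rw [← len_congr L (torCongrLeft i (e.baseChange R D A A') X)]
  exact h i

theorem exists_delta_bc [Module.Flat R D] (f : A' →ₗ[R] A) (g : A →ₗ[R] A'') (hf : Injective f)
    (hg : Surjective g) (h : Exact f g) :
    ∃ δ : ∀ n, TorM D (n + 1) (D ⊗[R] A'') X →ₗ[D] TorM D n (D ⊗[R] A') X,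
      (∀ n, Exact (torMap (n + 1) (g.baseChange D) X) (δ n)) ∧
      (∀ n, Exact (δ n) (torMap n (f.baseChange D) X)) ∧
      (∀ n, Exact (torMap n (f.baseChange D) X) (torMap n (g.baseChange D) X)) :=
  exists_torDelta (f.baseChange D) (g.baseChange D)
    (Module.Flat.lTensor_preserves_injective_linearMap (M := D) f hf)
    (LinearMap.lTensor_surjective D hg) (lTensor_exact D h hg) X

theorem TF.of_ses [Module.Flat R D] (f : A' →ₗ[R] A) (g : A →ₗ[R] A'') (hf : Injective f)
    (hg : Surjective g) (h : Exact f g) (h1 : TF R L X A') (h3 : TF R L X A'') : TF R L X A := by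
  obtain ⟨δ, -, -, h2⟩ := exists_delta_bc (D := D) X f g hf hg h
  intro i
  exact lt_of_le_of_lt (exact_len_le L _ _ (h2 i)) (ENNReal.add_lt_top.2 ⟨h1 i, h3 i⟩)

theorem TF.of_subsingleton [Subsingleton A] : TF R L X A := by
  intro i
  have h1 : Subsingleton (D ⊗[R] A) := inferInstance
  have h2 : Subsingleton (TorM D i (D ⊗[R] A) X) := by
    refine ⟨fun a b => ?_⟩
    have h3 : ∀ x : TorM D i (D ⊗[R] A) X, x = 0 := by
      intro x
      have := tor_smul_eq_zero_left (1 : D) (fun m : D ⊗[R] A => Subsingleton.elim _ _) i X x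
      rwa [one_smul] at this
    rw [h3 a, h3 b]
  rw [len_subsingleton]
  exact ENNReal.zero_lt_top

/-- if `h` is regular on `A` and kills `X` then finiteness for `A / h A` implies it for `A`. -/
theorem TF.of_regular [Module.Flat R D] (h : R) (hX : ∀ x : X, algebraMap R D h • x = 0)
    (f : A →ₗ[R] A) (hfh : ∀ a, f a = h • a) (g : A →ₗ[R] A'') (hf : Injective f)
    (hg : Surjective g) (hex : Exact f g) (h3 : TF R L X A'') : TF R L X A := by
  obtain ⟨δ, -, h2, -⟩ := exists_delta_bc (D := D) X f g hf hg hex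
  intro i
  have hz : ∀ x : TorM D i (D ⊗[R] A) X, torMap i (f.baseChange D) X x = 0 := by
    intro x
    rw [torMap_smul_id i (algebraMap R D h) (f.baseChange D) ?_ x]
    · exact tor_smul_eq_zero_right _ hX i _ x
    · intro m
      induction m using TensorProduct.induction_on with
      | zero => simp
      | tmul d a =>
        rw [LinearMap.baseChange_tmul, hfh, TensorProduct.tmul_smul, algebraMap_smul]
      | add y z hy hz => rw [map_add, smul_add, hy, hz]
  have hs : Surjective (δ i) := fun x => (h2 i x).1 (hz x)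
  exact lt_of_le_of_lt (len_surj L (δ i) hs) (h3 (i + 1))

/-- **FIN.** -/
theorem TF.of_residue [Module.Flat R D] [IsNoetherianRing R] [IsLocalRing R] (P I : Ideal R)
    (hI : ∀ h ∈ I, ∀ x : X, algebraMap R D h • x = 0)
    (hm : maximalIdeal R ≤ (P ⊔ I).radical) (h0 : TF R L X (R ⧸ maximalIdeal R))
    (A : Type u) [AddCommGroup A] [Module R A] [Module.Finite R A]
    (hA : ∀ a ∈ P, ∀ x : A, a • x = 0) : TF R L X A := by
  -- devissage: it is enough to treat the primes which contain `K`
  have key : ∀ K : Ideal R, (∀ Q : Ideal R, Q.IsPrime → K ≤ Q → TF R L X (R ⧸ Q)) →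
      ∀ (N : Type u) [AddCommGroup N] [Module R N] [Module.Finite R N],
        (∀ a ∈ K, ∀ x : N, a • x = 0) → TF R L X N := by
    intro K hK N _ _ hN
    refine IsNoetherianRing.induction_on_isQuotientEquivQuotientPrime (A := R) (M := N) hN
      (motive := fun N _ _ _ => (∀ a ∈ K, ∀ x : N, a • x = 0) → TF R L X N) ?_ ?_ ?_
    · intro N _ _ _ _ _
      exact TF.of_subsingleton L X
    · intro N _ _ _ q e hq
      refine TF.congr L X e.symm (hK q.1 q.2 ?_)
      intro a ha
      have h1 := hq a ha (e.symm 1)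
      rw [← map_smul, map_eq_zero_iff _ e.symm.injective] at h1
      rw [← Ideal.Quotient.eq_zero_iff_mem]
      rw [Algebra.smul_def, mul_one] at h1
      exact h1
    · intro N₁ _ _ _ N₂ _ _ _ N₃ _ _ _ f g hf hg hex h1 h3 h2
      refine TF.of_ses L X f g hf hg hex (h1 ?_) (h3 ?_)
      · intro a ha x
        apply hf
        rw [map_smul, h2 a ha, map_zero]
      · intro a ha x
        obtain ⟨y, rfl⟩ := hg x
        rw [← map_smul, h2 a ha, map_zero]
  refine key P ?_ A hA
  -- noetherian induction over the primes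
  intro Q
  induction Q using WellFoundedGT.induction with
  | ind Q ih =>
  intro hQ hPQ
  by_cases hQm : Q = maximalIdeal R
  · rw [hQm]; exact h0
  · have h1 : ¬ I ≤ Q := by
      intro h
      apply hQm
      refine le_antisymm (le_maximalIdeal hQ.ne_top) ?_
      refine hm.trans ?_
      refine (Ideal.radical_mono (sup_le hPQ h)).trans ?_
      rw [hQ.radical]
    obtain ⟨h, hhI, hhQ⟩ := SetLike.not_le_iff_exists.1 h1
    let f : (R ⧸ Q) →ₗ[R] (R ⧸ Q) := LinearMap.lsmul R (R ⧸ Q) h
    let g : (R ⧸ Q) →ₗ[R] (R ⧸ (Q ⊔ Ideal.span {h})) :=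
      Submodule.factor (le_sup_left : Q ≤ Q ⊔ Ideal.span {h})
    have hf : Injective f := by
      rw [injective_iff_map_eq_zero]
      intro x hx
      obtain ⟨x, rfl⟩ := Ideal.Quotient.mk_surjective x
      have h2 : Ideal.Quotient.mk Q (h * x) = 0 := hx
      rw [Ideal.Quotient.eq_zero_iff_mem] at h2 ⊢
      exact (hQ.mem_or_mem h2).resolve_left hhQ
    have hg : Surjective g := Submodule.factor_surjective _
    have hex : Exact f g := by
      intro x
      obtain ⟨x, rfl⟩ := Ideal.Quotient.mk_surjective x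
      constructor
      · intro hx
        have h2 : Ideal.Quotient.mk (Q ⊔ Ideal.span {h}) x = 0 := hx
        rw [Ideal.Quotient.eq_zero_iff_mem, Submodule.mem_sup] at h2
        obtain ⟨a, ha, b, hb, rfl⟩ := h2
        obtain ⟨c, rfl⟩ := Ideal.mem_span_singleton'.1 hb
        refine ⟨Ideal.Quotient.mk Q c, ?_⟩
        show Ideal.Quotient.mk Q (h * c) = _
        rw [Ideal.Quotient.mk_eq_mk_iff_sub_mem]
        have h3 : h * c - (a + c * h) = -a := by ring
        rw [h3]
        exact neg_mem ha
      · rintro ⟨y, hy⟩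
        obtain ⟨y, rfl⟩ := Ideal.Quotient.mk_surjective y
        rw [← hy]
        show Ideal.Quotient.mk (Q ⊔ Ideal.span {h}) (h * y) = 0
        rw [Ideal.Quotient.eq_zero_iff_mem]
        exact Ideal.mul_mem_right _ _ (Ideal.mem_sup_right (Ideal.mem_span_singleton_self h))
    refine TF.of_regular L X h (hI h hhI) f (fun a => rfl) g hf hg hex ?_
    refine key (Q ⊔ Ideal.span {h}) ?_ _ ?_
    · intro Q' hQ' hle
      refine ih Q' ?_ hQ' (hPQ.trans (le_sup_left.trans hle))
      refine lt_of_le_of_ne (le_sup_left.trans hle) ?_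
      rintro rfl
      exact hhQ (hle (Ideal.mem_sup_right (Ideal.mem_span_singleton_self h)))
    · intro a ha x
      obtain ⟨x, rfl⟩ := Ideal.Quotient.mk_surjective x
      show Ideal.Quotient.mk _ (a * x) = 0
      rw [Ideal.Quotient.eq_zero_iff_mem]
      exact Ideal.mul_mem_right _ _ ha

/-- FIN, with the big module in the first variable. -/
theorem TF.len_tor_lt_top (h : TF R L X A) (i : ℕ) :
    L.len (TorM D i X (D ⊗[R] A)) < ⊤ := by
  obtain ⟨e⟩ := tor_symm (R := D) i X (D ⊗[R] A)
  rw [len_congr L e]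
  exact h i

theorem TF.of_len_tor_lt_top (h : ∀ i, L.len (TorM D i X (D ⊗[R] A)) < ⊤) :
    TF R L X A := by
  intro i
  obtain ⟨e⟩ := tor_symm (R := D) i X (D ⊗[R] A)
  rw [← len_congr L e]
  exact h i

end Vale.Agent.P177.KM
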