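import Vale.Agent.P177.KM.KMass

/-!
P177, (K), part 2: a family of ideals `J b` with exact Koszul complexes `J (b + n - i)`; the Koszul
homology of `J b` has finite length for every additive length which kills `h`-torsion, as soon as
`h (J b ∩ Y_l) ⊆ J b'` for some `l` and `C / Y_l` has finite length.
-/

namespace Vale.Agent.P177.KM

open Vale.Agent.P202.Mix Vale.Agent.P177.Mass Vale.Agent.P177.PI
open scoped ENNReal

universe u

section Fam

variable {R C : Type u} [CommRing R] [CommRing C] [Algebra R C] {n : ℕ}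

/-- multiplication by `c` on an ideal, over a base ring `R`. -/
noncomputable def mulJ (R : Type u) [CommRing R] [Algebra R C] (J : Ideal C) (c : C) :
    ↥J →ₗ[R] ↥J :=
  (LinearMap.lsmul C ↥J c).restrictScalars R

@[simp] theorem mulJ_apply (J : Ideal C) (c : C) (x : ↥J) : mulJ R J c x = c • x := rfl

theorem mulJ_coe (J : Ideal C) (c : C) (x : ↥J) : (mulJ R J c x : C) = c * x := rfl

/-- the submodule `J' ∩ J` of `J`. -/
noncomputable def subJ (R : Type u) [CommRing R] [Algebra R C] (J J' : Ideal C) :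
    Submodule R ↥J :=
  (Submodule.comap J.subtype J').restrictScalars R

@[simp] theorem mem_subJ {J J' : Ideal C} {x : ↥J} : x ∈ subJ R J J' ↔ (x : C) ∈ J' := Iff.rfl

/-- Koszul exactness in one degree for a family of ideals. -/
def KosEx (y : Fin n → C) (J : ℕ → Ideal C) (s i : ℕ) : Prop :=
  ∀ v : Finset (Fin n) → C, (∀ S : Finset (Fin n), S.card = i → v S ∈ J (s - i)) →
    (∀ S : Finset (Fin n), S.card ≠ i → v S = 0) → kd y v = 0 →
    ∃ w : Finset (Fin n) → C, (∀ S : Finset (Fin n), S.card = i + 1 → w S ∈ J (s - (i + 1))) ∧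
      (∀ S : Finset (Fin n), S.card ≠ i + 1 → w S = 0) ∧ kd y w = v

theorem kz_mulJ (y : Fin n → C) (J : Ideal C) (v : Finset (Fin n) → ↥J) (S : Finset (Fin n)) :
    (kz (fun l => mulJ R J (y l)) v S : C) = kd y (fun S => (v S : C)) S := by
  rw [kzb_apply]
  unfold kd
  rw [AddSubmonoidClass.coe_finsetSum]
  refine Finset.sum_congr rfl fun l _ => ?_
  rfl

/-- (K2): the Koszul homology of `J b` is controlled by `J b / J (b + n - i)`. -/
theorem len_KH_mulJ_le (L : AddLen R) (y : Fin n → C) (J : ℕ → Ideal C) (hJ : Antitone J)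
    (b i : ℕ) (hex : KosEx y J (b + n) i) :
    L.len (KH (fun l => mulJ R (J b) (y l)) i) ≤
      ∑ _S ∈ (Finset.univ : Finset (Finset (Fin n))).filter (fun S => S.card = i),
        L.len (↥(J b) ⧸ subJ R (J b) (J (b + n - i))) := by
  refine len_KH_le L (fun l => mulJ R (J b) (y l)) (fun _ => subJ R (J b) (J (b + n - i))) i ?_
  intro v hv hv0 hz
  by_cases hi : i < n
  · obtain ⟨w, hw, hw0, hwz⟩ := hex (fun S => (v S : C)) (fun S hS => hv S hS)
      (fun S hS => by rw [hv0 S hS]; rfl) (by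
        funext S
        rw [← kz_mulJ (R := R), hz]
        rfl)
    have hw1 : ∀ S, w S ∈ J b := by
      intro S
      by_cases h : S.card = i + 1
      · exact hJ (by omega) (hw S h)
      · rw [hw0 S h]; exact zero_mem _
    refine ⟨fun S => ⟨w S, hw1 S⟩, fun S hS => Subtype.ext (hw0 S hS), ?_⟩
    funext S
    apply Subtype.ext
    rw [kz_mulJ]
    exact congrFun hwz S
  · -- `i ≥ n`: the cycles with all entries vanish because of exactness.
    obtain ⟨w, hw, hw0, hwz⟩ := hex (fun S => (v S : C)) (fun S hS => hv S hS)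
      (fun S hS => by rw [hv0 S hS]; rfl) (by
        funext S
        rw [← kz_mulJ (R := R), hz]
        rfl)
    have hw1 : ∀ S, w S = 0 := by
      intro S
      refine hw0 S ?_
      have := S.card_le_univ
      rw [Fintype.card_fin] at this
      omega
    refine ⟨0, fun S _ => rfl, ?_⟩
    rw [map_zero]
    funext S
    apply Subtype.ext
    have h1 := congrFun hwz S
    have h2 : w = 0 := funext hw1
    rw [h2, kd_zero] at h1
    exact h1

end Fam

section Fin

variable {R C : Type u} [CommRing R] [CommRing C] [Algebra R C] {n : ℕ} (L : AddLen R)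

/-- (K1): `J / J'` is finite if `h (J ∩ Y) ⊆ J'` and `C / Y` is finite. -/
theorem len_quot_subJ_le (h : R) (hL : ∀ (M : Type u) [AddCommGroup M] [Module R M],
      (∀ m : M, h • m = 0) → L.len M = 0)
    (J J' Y : Ideal C) (hJY : ∀ x ∈ J, x ∈ Y → h • x ∈ J') :
    L.len (↥J ⧸ subJ R J J') ≤ L.len (C ⧸ Y) := by
  -- `A = J' ∩ J`, `B = Y ∩ J`
  set A := subJ R J J' with hA
  set B := subJ R J Y with hB
  have h1 : L.len (↥J ⧸ A) ≤ L.len (↥J ⧸ (A ⊔ B)) + 0 := by
    rw [len_sub L (LinearMap.ker (Submodule.factor (le_sup_left : A ≤ A ⊔ B))), add_comm]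
    refine add_le_add ?_ ?_
    · rw [len_congr L ((Submodule.factor (le_sup_left : A ≤ A ⊔ B)).quotKerEquivOfSurjective
        (Submodule.factor_surjective _))]
    · refine (hL _ ?_).le
      rintro ⟨x, hx⟩
      obtain ⟨x, rfl⟩ := Submodule.mkQ_surjective _ x
      have h2 : (A ⊔ B).mkQ x = 0 := hx
      rw [Submodule.mkQ_apply, Submodule.Quotient.mk_eq_zero, Submodule.mem_sup] at h2
      obtain ⟨a, ha, b, hb, rfl⟩ := h2
      refine Subtype.ext ?_
      show h • A.mkQ (a + b) = 0
      rw [← map_smul, Submodule.mkQ_apply, Submodule.Quotient.mk_eq_zero, smul_add]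
      refine add_mem (A.smul_mem _ ha) ?_
      exact hJY b b.2 hb
  rw [add_zero] at h1
  refine h1.trans ((len_quot_le L (le_sup_right : B ≤ A ⊔ B)).trans ?_)
  have h3 : B = LinearMap.ker ((Y.mkQ.restrictScalars R) ∘ₗ (J.subtype.restrictScalars R)) := by
    ext x
    simp [hB, LinearMap.mem_ker, Ideal.Quotient.eq_zero_iff_mem]
  rw [h3]
  exact len_quot_ker L _

/-- a module with `s` generators killed by `I` has length at most `s · len (C / I)`. -/
theorem len_le_of_gen {M : Type u} [AddCommGroup M] [Module C M] [Module R M]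
    [IsScalarTower R C M] {s : ℕ} (g : Fin s → M) (hg : ∀ m : M, ∃ c : Fin s → C, ∑ i, c i • g i = m)
    (I : Ideal C) (hI : ∀ a ∈ I, ∀ i, a • g i = 0) :
    L.len M ≤ ∑ _i : Fin s, L.len (C ⧸ I) := by
  let φ : (Fin s → C) →ₗ[R] M := (Fintype.linearCombination C g).restrictScalars R
  have hφ : Function.Surjective φ := by
    intro m
    obtain ⟨c, hc⟩ := hg m
    exact ⟨c, hc⟩
  let A : Fin s → Submodule R (Fin s → C) := fun i =>
    LinearMap.ker ((I.mkQ.restrictScalars R) ∘ₗ (LinearMap.proj i : (Fin s → C) →ₗ[R] C))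
  have h1 : Finset.univ.inf A ≤ LinearMap.ker φ := by
    intro x hx
    rw [Submodule.mem_finsetInf] at hx
    rw [LinearMap.mem_ker]
    show ∑ i, x i • g i = 0
    refine Finset.sum_eq_zero fun i _ => hI _ ?_ i
    have h2 := hx i (Finset.mem_univ i)
    have h3 : Ideal.Quotient.mk I (x i) = 0 := h2
    exact Ideal.Quotient.eq_zero_iff_mem.1 h3
  calc L.len M = L.len ((Fin s → C) ⧸ LinearMap.ker φ) :=
        (len_congr L (φ.quotKerEquivOfSurjective hφ)).symm
    _ ≤ L.len ((Fin s → C) ⧸ Finset.univ.inf A) := len_quot_le L h1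
    _ ≤ ∑ i : Fin s, L.len ((Fin s → C) ⧸ A i) := len_quot_iInf L _ _
    _ ≤ ∑ _i : Fin s, L.len (C ⧸ I) := Finset.sum_le_sum fun i _ => len_quot_ker L _

theorem len_restrict (I : Ideal C) : L.len (C ⧸ I.restrictScalars R) = L.len (C ⧸ I) :=
  len_congr L (Submodule.Quotient.restrictScalarsEquiv R I)

/-- `len (V / A) = len (B / A) + len (V / B)`. -/
theorem len_quot_quot {V : Type u} [AddCommGroup V] [Module R V] {A B : Submodule R V}
    (h : A ≤ B) : L.len (V ⧸ A) = L.len (↥B ⧸ A.submoduleOf B) + L.len (V ⧸ B) := by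
  have hs := Submodule.factor_surjective h
  rw [len_ker_range L (Submodule.factor h), LinearMap.range_eq_top.2 hs,
    len_congr L (Submodule.topEquiv (R := R) (M := V ⧸ B))]
  congr 1
  let f : ↥B →ₗ[R] ↥(LinearMap.ker (Submodule.factor h)) :=
    LinearMap.codRestrict _ (A.mkQ ∘ₗ B.subtype) (by
      rintro ⟨x, hx⟩
      show B.mkQ x = 0
      rw [Submodule.mkQ_apply, Submodule.Quotient.mk_eq_zero]
      exact hx)
  have hf : Function.Surjective f := by
    rintro ⟨x, hx⟩
    obtain ⟨x, rfl⟩ := Submodule.mkQ_surjective _ x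
    have h2 : B.mkQ x = 0 := hx
    rw [Submodule.mkQ_apply, Submodule.Quotient.mk_eq_zero] at h2
    exact ⟨⟨x, h2⟩, rfl⟩
  have hk : LinearMap.ker f = A.submoduleOf B := by
    ext x
    rw [LinearMap.mem_ker]
    constructor
    · intro h3
      have h4 : A.mkQ (x : V) = 0 := congrArg Subtype.val h3
      rw [Submodule.mkQ_apply, Submodule.Quotient.mk_eq_zero] at h4
      exact h4
    · intro h3
      apply Subtype.ext
      show A.mkQ (x : V) = 0
      rw [Submodule.mkQ_apply, Submodule.Quotient.mk_eq_zero]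
      exact h3
  rw [← hk]
  exact (len_congr L (f.quotKerEquivOfSurjective hf)).symm

/-- `len (I ^ l / I ^ (l + 1))` is finite. -/
theorem len_gr_lt_top (I : Ideal C) (hI : I.FG) (hf : L.len (C ⧸ I) < ⊤) (l : ℕ) :
    L.len (↥(I ^ l) ⧸ (I ^ (l + 1)).submoduleOf (I ^ l)) < ⊤ := by
  obtain ⟨s, g, hg⟩ := Submodule.fg_iff_exists_fin_generating_family.1
    (Ideal.FG.pow hI (n := l))
  have hgm : ∀ i, g i ∈ I ^ l := fun i => by rw [← hg]; exact Submodule.subset_span ⟨i, rfl⟩
  have h4 := len_le_of_gen (R := R) L (M := ↥(I ^ l) ⧸ (I ^ (l + 1)).submoduleOf (I ^ l))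
    (fun i => Submodule.Quotient.mk ⟨g i, hgm i⟩) (by
      intro m
      obtain ⟨⟨y, hy⟩, rfl⟩ := Submodule.Quotient.mk_surjective _ m
      have hy' := hy
      rw [← hg, Submodule.mem_span_range_iff_exists_fun] at hy'
      obtain ⟨c, hc⟩ := hy'
      refine ⟨c, ?_⟩
      simp_rw [← Submodule.Quotient.mk_smul]
      have h5 : ∀ i, (Submodule.Quotient.mk (c i • (⟨g i, hgm i⟩ : ↥(I ^ l))) :
          ↥(I ^ l) ⧸ (I ^ (l + 1)).submoduleOf (I ^ l)) =
          ((I ^ (l + 1)).submoduleOf (I ^ l)).mkQ (c i • (⟨g i, hgm i⟩ : ↥(I ^ l))) :=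
        fun i => rfl
      simp_rw [h5]
      rw [← map_sum]
      show ((I ^ (l + 1)).submoduleOf (I ^ l)).mkQ _ =
        ((I ^ (l + 1)).submoduleOf (I ^ l)).mkQ ⟨y, hy⟩
      congr 1
      apply Subtype.ext
      rw [AddSubmonoidClass.coe_finsetSum]
      exact hc) I (by
      intro a ha i
      rw [← Submodule.Quotient.mk_smul, Submodule.Quotient.mk_eq_zero]
      show a * g i ∈ I ^ (l + 1)
      rw [pow_succ']
      exact Ideal.mul_mem_mul ha (hgm i))
  refine lt_of_le_of_lt h4 ?_
  rw [Finset.sum_const, nsmul_eq_mul]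
  exact ENNReal.mul_lt_top (ENNReal.natCast_lt_top _) hf

/-- `len (C / I ^ l)` is finite if `len (C / I)` is finite. -/
theorem len_pow_lt_top (I : Ideal C) (hI : I.FG) (hf : L.len (C ⧸ I) < ⊤) (l : ℕ) :
    L.len (C ⧸ I ^ l) < ⊤ := by
  induction l with
  | zero =>
    have : Subsingleton (C ⧸ I ^ 0) := by
      rw [pow_zero, Ideal.one_eq_top]
      exact Ideal.Quotient.subsingleton_iff.2 rfl
    rw [len_subsingleton]
    exact ENNReal.zero_lt_top
  | succ l ih =>
    have hle : (I ^ (l + 1)).restrictScalars R ≤ (I ^ l).restrictScalars R :=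
      Ideal.pow_le_pow_right (Nat.le_succ l)
    rw [← len_restrict, len_quot_quot L hle, len_restrict]
    refine ENNReal.add_lt_top.2 ⟨?_, ih⟩
    refine lt_of_eq_of_lt ?_ (len_gr_lt_top L I hI hf l)
    exact len_congr L (Submodule.Quotient.restrictScalarsEquiv R
      ((I ^ (l + 1)).submoduleOf (I ^ l)))

end Fin

end Vale.Agent.P177.KM
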