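import Vale.Agent.P177.KM.KFin

/-!
P177, (K), part 3: finiteness of the Koszul homology of `J b`, and the families
`J b = perfHull (P Y^b)` (one level) and their products (all levels).
-/

namespace Vale.Agent.P177.KM

open Vale.Agent.P202.Mix Vale.Agent.P177.Mass Vale.Agent.P177.PI Vale.Agent.P177.Perf
open scoped ENNReal

universe u v

section Main

variable {R C : Type u} [CommRing R] [CommRing C] [Algebra R C] {n : ℕ} (L : AddLen R)

/-- **(K)**: the Koszul homology of `J b` is finite. -/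
theorem len_KH_mulJ_lt_top (h : R) (hL : ∀ (M : Type u) [AddCommGroup M] [Module R M],
      (∀ m : M, h • m = 0) → L.len M = 0)
    (y : Fin n → C) (J : ℕ → Ideal C) (hJ : Antitone J) (b i : ℕ)
    (hex : KosEx y J (b + n) i) (Y : Ideal C) (hY : L.len (C ⧸ Y) < ⊤)
    (hJY : ∀ x ∈ J b, x ∈ Y → h • x ∈ J (b + n - i)) :
    L.len (KH (fun l => mulJ R (J b) (y l)) i) < ⊤ := by
  refine lt_of_le_of_lt (len_KH_mulJ_le L y J hJ b i hex) ?_
  rw [Finset.sum_const, nsmul_eq_mul]
  refine ENNReal.mul_lt_top (ENNReal.natCast_lt_top _) ?_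
  exact lt_of_le_of_lt (len_quot_subJ_le L h hL (J b) (J (b + n - i)) Y hJY) hY

/-- `C / Y'` is finite if `C / I` is finite and `I ^ l ≤ Y'`. -/
theorem len_quot_lt_top_of_pow_le (I : Ideal C) (hI : I.FG) (hf : L.len (C ⧸ I) < ⊤) (l : ℕ)
    (Y : Ideal C) (hY : I ^ l ≤ Y) : L.len (C ⧸ Y) < ⊤ := by
  refine lt_of_le_of_lt ?_ (len_pow_lt_top L I hI hf l)
  rw [← len_restrict, ← len_restrict]
  exact len_quot_le L (show (I ^ l).restrictScalars R ≤ Y.restrictScalars R from hY)

end Main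

section Perfect

variable (p : ℕ) [hp : Fact p.Prime] {C : Type u} [CommRing C] [CharP C p] [PerfectRing C p]

/-- `J b = perfHull (P Y^b)`. -/
noncomputable def PJ (P : Ideal C) {n : ℕ} (y : Fin n → C) (b : ℕ) : Ideal C :=
  perfHull p (P * Ideal.span (Set.range y) ^ b)

omit [PerfectRing C p] in
theorem PJ_antitone (P : Ideal C) {n : ℕ} (y : Fin n → C) : Antitone (PJ p P y) := by
  intro b b' h
  exact perfHull_mono (Ideal.mul_mono_right (Ideal.pow_le_pow_right h))

theorem kosEx_PJ (P : Ideal C) (hP : P.FG) {n : ℕ} (y : Fin n → C) (s : ℕ) (hs : n < s) (i : ℕ) :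
    KosEx y (PJ p P y) s i := fun v hv hv0 hz => kos_exact_graded p P hP y s hs i v hv hv0 hz

end Perfect

section Prod

variable {ι : Type v} {C : ι → Type u} [∀ e, CommRing (C e)] {n : ℕ}

/-- the product ideal (Mathlib's `Ideal.pi`). -/
abbrev piI (J : ∀ e, Ideal (C e)) : Ideal (∀ e, C e) := Ideal.pi J

theorem mem_piI {J : ∀ e, Ideal (C e)} {x : ∀ e, C e} : x ∈ piI J ↔ ∀ e, x e ∈ J e :=
  Iff.rfl

theorem piI_antitone (J : ∀ e, ℕ → Ideal (C e)) (h : ∀ e, Antitone (J e)) :
    Antitone fun b => piI fun e => J e b :=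
  fun _ _ hb _ hx e => h e hb (hx e)

theorem kd_pi (y : Fin n → ∀ e, C e) (v : Finset (Fin n) → ∀ e, C e) (S : Finset (Fin n)) (e : ι) :
    kd y v S e = kd (fun l => y l e) (fun S => v S e) S :=
  kd_map (Pi.evalRingHom C e) y v S

theorem kosEx_piI (y : Fin n → ∀ e, C e) (J : ∀ e, ℕ → Ideal (C e)) (s i : ℕ)
    (h : ∀ e, KosEx (fun l => y l e) (J e) s i) : KosEx y (fun b => piI fun e => J e b) s i := by
  intro v hv hv0 hz
  have h1 := fun e => h e (fun S => v S e) (fun S hS => hv S hS e)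
    (fun S hS => by rw [hv0 S hS]; rfl) (by
      funext S
      rw [← kd_pi, hz]
      rfl)
  choose w hw hw0 hwz using h1
  refine ⟨fun S e => w e S, fun S hS e => hw e S hS, fun S hS => ?_, ?_⟩
  · funext e
    exact hw0 e S hS
  · funext S e
    rw [kd_pi]
    exact congrFun (hwz e) S

end Prod

end Vale.Agent.P177.KM
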